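import Vale.Agent.Lib.P302.CheckB

namespace Vale.Agent.Results.P302.Gap11over9

open Vale.Agent.Lib.P302

theorem check : checkGadgetB 1200000 36 10 154491 309000 398957 3 13
    [891014, 891006, 891002]
    [154502, 154498, 154497, 154494, 154493, 154491]
    [398957, 398979, 399553, 399809, 399987, 399999, 400017, 400036, 400462, 400510, 400512, 400562, 400706]
    [582000, 545000, 542000, 530000, 498000, 495000, 479000, 357000, 355000, 352000, 351000, 350000, 334000, 332000, 329000, 327000, 325000, 314000, 309000]
    [([582000, 582000], 12),
     ([399999, 399999, 399999], 10),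
     ([542000, 332000, 325000], 24),
     ([400706, 400017, 398979], 12),
     ([498000, 352000, 350000], 12),
     ([400562, 399809, 399553], 12),
     ([479000, 400706, 309000], 6),
     ([542000, 329000, 329000], 12),
     ([495000, 352000, 352000], 12),
     ([400706, 399553, 399553], 12),
     ([400512, 400462, 398979], 24),
     ([479000, 400562, 314000], 12),
     ([400512, 400512, 398957], 6),
     ([400017, 400017, 399809], 3),
     ([399999, 399999, 399809], 3),
     ([400017, 399987, 399987], 18),
     ([545000, 329000, 325000], 12),
     ([400510, 400510, 398957], 18),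
     ([400036, 400036, 399809], 18),
     ([400562, 400462, 398957], 12),
     ([479000, 357000, 357000], 12),
     ([495000, 355000, 350000], 24),
     ([479000, 400706, 314000], 6),
     ([498000, 351000, 351000], 18),
     ([498000, 357000, 332000], 6),
     ([545000, 332000, 314000], 6),
     ([530000, 355000, 314000], 12),
     ([530000, 357000, 309000], 6),
     ([530000, 334000, 334000], 18),
     ([545000, 327000, 327000], 18),
     ([582000, 309000, 309000], 12),
     ([891014, 154491, 154494], 18),
     ([891014, 154493, 154493], 18),
     ([891006, 154491, 154502], 18),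
     ([891006, 154497, 154497], 18),
     ([891002, 154494, 154502], 18),
     ([891002, 154498, 154498], 18)] = true := by
  decide +kernel

theorem result : ∃ a : List ℚ, (∀ x ∈ a, 0 < x ∧ x ≤ 1) ∧ (OPT a : ℝ) - LP a ≥ 11 / 9 := by
  have key := gap_of_gadgetB _ _ _ _ _ _ _ _ _ _ _ _ _ check
  refine ⟨_, key.1, ?_⟩
  refine le_trans ?_ key.2
  norm_num

end Vale.Agent.Results.P302.Gap11over9
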