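import Vale.Agent.Lib.P302.CheckB

namespace Vale.Agent.Results.P302.Gap29over24

open Vale.Agent.Lib.P302

theorem check : checkHoleB 22800 24 7 2965 5947 10
    [16866, 16858, 16854]
    [2976, 2972, 2971, 2968, 2967, 2965]
    [10906, 10260, 10203, 10089, 9424, 9386, 9006, 7676, 7676, 7600, 7562, 6764, 6745, 6707, 6688, 6669, 6346, 6346, 6289, 6270, 6251, 6118, 5947]
    [([10906, 10906], 9),
     ([10260, 6289, 6251], 8),
     ([10203, 6346, 6251], 16),
     ([10089, 6346, 6346], 12),
     ([9424, 6707, 6669], 8),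
     ([9424, 6745, 6346], 4),
     ([9386, 6707, 6707], 8),
     ([10260, 6346, 6118], 4),
     ([7600, 7600, 7600], 8),
     ([7676, 7562, 7562], 12),
     ([10089, 6764, 5947], 12),
     ([9006, 6764, 6745], 4),
     ([7676, 7676, 6764], 8),
     ([9386, 6745, 6669], 16),
     ([9424, 6688, 6688], 12),
     ([10203, 6289, 6289], 8),
     ([10260, 6270, 6270], 12),
     ([9006, 7676, 6118], 20),
     ([10906, 5947, 5947], 6),
     ([16866, 2965, 2968], 12),
     ([16866, 2967, 2967], 12),
     ([16858, 2965, 2976], 12),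
     ([16858, 2971, 2971], 12),
     ([16854, 2968, 2976], 12),
     ([16854, 2972, 2972], 12)] = true := by
  decide +kernel

theorem result : ∃ a : List ℚ, (∀ x ∈ a, 0 < x ∧ x ≤ 1) ∧ (OPT a : ℝ) - LP a ≥ 29 / 24 := by
  have key := gap_of_holeB _ _ _ _ _ _ _ _ _ _ check
  refine ⟨_, key.1, ?_⟩
  refine le_trans ?_ key.2
  norm_num

end Vale.Agent.Results.P302.Gap29over24
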