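import Vale.Agent.Lib.P302.I551.C0
import Vale.Agent.Lib.P302.I551.C1
import Vale.Agent.Lib.P302.I551.C2
import Vale.Agent.Lib.P302.I551.C3

namespace Vale.Agent.Results.P302.Gap551over448

open Vale.Agent.Lib.P302 Vale.Agent.Lib.P302.I551

theorem small : checkGapDomSmall 3600000 1344 451490
    [2697016, 2697008, 2697004]
    [451501, 451497, 451496, 451493, 451492, 451490]
    (itemsG ++ itemsR)
    [([1710000, 1710000], 417),
     ([1200797, 1200797, 1047000], 212),
     ([1200563, 1199728, 1199677], 1106),
     ([1200046, 1200001, 1199933], 168),
     ([1533000, 1047000, 1020000], 622),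
     ([1200797, 1200797, 1056000], 834),
     ([1554000, 1026000, 1020000], 672),
     ([1200016, 1200001, 1199982], 1008),
     ([1494000, 1200577, 903000], 238),
     ([1710000, 945000, 945000], 510),
     ([1200527, 1200527, 1198931], 448),
     ([1659000, 957000, 957000], 672),
     ([1200527, 1200478, 1198964], 448),
     ([1494000, 1056000, 1047000], 510),
     ([1443000, 1200577, 948000], 782),
     ([1200030, 1200030, 1199933], 672),
     ([1200561, 1200561, 1038000], 112),
     ([1443000, 1200577, 945000], 324),
     ([1200000, 1200000, 1200000], 896),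
     ([1200046, 1199982, 1199972], 336),
     ([1200046, 1199972, 1199972], 504),
     ([1200514, 1200514, 1198964], 672),
     ([1200046, 1200016, 1199933], 336),
     ([1566000, 1026000, 1005000], 672),
     ([1494000, 1200797, 903000], 596),
     ([1200561, 1200478, 1198931], 896),
     ([1566000, 1017000, 1017000], 672),
     ([1443000, 1200563, 948000], 238),
     ([1200063, 1200063, 1199677], 238),
     ([1533000, 1038000, 1020000], 50),
     ([1533000, 1032000, 1032000], 672),
     ([1200561, 1200063, 1198964], 224),
     ([1554000, 1038000, 1005000], 672),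
     ([1659000, 948000, 948000], 162),
     ([1659000, 1038000, 903000], 510),
     ([1200063, 1200001, 1199933], 168),
     ([1200063, 1200063, 1199728], 238),
     ([2697016, 451490, 451493], 672),
     ([2697016, 451492, 451492], 672),
     ([2697008, 451490, 451501], 672),
     ([2697008, 451496, 451496], 672),
     ([2697004, 451493, 451501], 672),
     ([2697004, 451497, 451497], 672)] = true := by
  decide +kernel

theorem triples : bc 1198931 22 (itemsG.take (3 * (5 + 1))).reverse (List.replicate (5 + 1) 3600000)
    ((List.replicate (5 + 1) 3600000).sum - (itemsG.take (3 * (5 + 1))).reverse.sum) = false := by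
  decide +kernel

theorem chunks : chunksFrom good pairs 0 [30, 10, 2, 9, 1, 1, 8, 1, 1, 9] :=
  (And.intro chunk0
    (And.intro chunk1
    (And.intro chunk2
    (And.intro chunk3
    (And.intro chunk4
    (And.intro chunk5
    (And.intro chunk6
    (And.intro chunk7
    (And.intro chunk8
    (And.intro chunk9
    (by show pairs.length ≤ _; decide +kernel)))))))))))

theorem configs : (cfgPairs 5 itemsG.length).all
    (cfgOK 451490 20 3600000 1198931 14 itemsG.length (itemsR ++ [451490])) = true := by
  have h := all_drop_of_chunksFrom good pairs _ 0 chunks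
  rwa [List.drop_zero] at h

theorem result : ∃ a : List ℚ, (∀ x ∈ a, 0 < x ∧ x ≤ 1) ∧ (OPT a : ℝ) - LP a ≥ 551 / 448 := by
  have h := gap_of_gadget 3600000 1344 14 451490 1198931 5 20 22 _ _ itemsG itemsR _ small (by decide)
    (by decide) (by decide) (by decide +kernel) (by decide +kernel) (by decide) (by decide +kernel)
    triples configs
  refine ⟨_, h.1, ?_⟩
  refine le_trans ?_ h.2
  norm_num

end Vale.Agent.Results.P302.Gap551over448
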