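import Vale.Agent.Lib.P302.PreFill

namespace Vale.Agent.Results.P302.Gap669over544

open Vale.Agent.Lib.P302

theorem check : checkGadgetC 3600000 3264 14 460491 921000 1198931 5 17
    [2679014, 2679006, 2679002]
    [460502, 460498, 460497, 460494, 460493, 460491]
    [1198931, 1198964, 1199677, 1199728, 1199933, 1199972, 1199982, 1200000, 1200000, 1200001, 1200016, 1200030, 1200046, 1200063, 1200478, 1200514, 1200527, 1200561, 1200563, 1200577, 1200797]
    [1716000, 1665000, 1596000, 1557000, 1503000, 1482000, 1476000, 1281000, 1266000, 1098000, 1068000, 1062000, 1062000, 1059000, 1047000, 1044000, 1008000, 1005000, 1002000, 981000, 966000, 939000, 921000]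
    [([1716000, 1716000], 1014),
     ([1665000, 966000, 966000], 1632),
     ([1596000, 1002000, 1002000], 1632),
     ([1557000, 1005000, 1005000], 1017),
     ([1503000, 1047000, 1044000], 1632),
     ([1200561, 1200561, 1068000], 272),
     ([1596000, 1005000, 981000], 1230),
     ([1266000, 1266000, 1062000], 1632),
     ([1281000, 1200577, 1098000], 3094),
     ([1200577, 1200577, 1068000], 85),
     ([1281000, 1200797, 1068000], 170),
     ([1200527, 1200527, 1198931], 1088),
     ([1200561, 1200063, 1198964], 544),
     ([1200563, 1199728, 1199677], 2686),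
     ([1200514, 1200514, 1198964], 1632),
     ([1200527, 1200478, 1198964], 1088),
     ([1200561, 1200478, 1198931], 2176),
     ([1200046, 1199972, 1199972], 816),
     ([1200046, 1199982, 1199972], 1224),
     ([1200016, 1200001, 1199982], 2040),
     ([1200046, 1200016, 1199933], 1224),
     ([1200000, 1200000, 1200000], 2176),
     ([1200063, 1200001, 1199933], 408),
     ([1200001, 1200001, 1199972], 408),
     ([1200030, 1200030, 1199933], 1632),
     ([1200063, 1200063, 1199728], 578),
     ([1200063, 1200063, 1199677], 578),
     ([1557000, 1008000, 1008000], 603),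
     ([1200797, 1200797, 1062000], 366),
     ([1200563, 1200563, 1068000], 289),
     ([1476000, 1200797, 921000], 2022),
     ([1476000, 1062000, 1062000], 1242),
     ([1482000, 1059000, 1059000], 1632),
     ([1665000, 981000, 939000], 390),
     ([1503000, 1044000, 1044000], 816),
     ([1482000, 1068000, 1047000], 1632),
     ([1503000, 1068000, 1008000], 816),
     ([1200797, 1200797, 1098000], 170),
     ([1557000, 1062000, 981000], 1644),
     ([1596000, 1062000, 939000], 402),
     ([1716000, 939000, 939000], 1236),
     ([1665000, 1008000, 921000], 1242),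
     ([2679014, 460491, 460494], 1632),
     ([2679014, 460493, 460493], 1632),
     ([2679006, 460491, 460502], 1632),
     ([2679006, 460497, 460497], 1632),
     ([2679002, 460494, 460502], 1632),
     ([2679002, 460498, 460498], 1632)] = true := by
  decide +kernel

theorem result : ∃ a : List ℚ, (∀ x ∈ a, 0 < x ∧ x ≤ 1) ∧ (OPT a : ℝ) - LP a ≥ 669 / 544 := by
  have key := gap_of_gadgetC _ _ _ _ _ _ _ _ _ _ _ _ _ check
  refine ⟨_, key.1, ?_⟩
  refine le_trans ?_ key.2
  norm_num

end Vale.Agent.Results.P302.Gap669over544
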