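import Vale.Agent.Lib.P302.CheckB

namespace Vale.Agent.Results.P302.GapInstance

open Vale.Agent.Lib.P302

theorem check : checkHoleB 22800 54 7 2993 6004 10
    [16810, 16802, 16798]
    [3004, 3000, 2999, 2996, 2995, 2993]
    [10393, 10374, 10298, 10127, 9614, 9557, 8018, 7885, 7809, 7600, 7581, 7068, 6688, 6669, 6612, 6593, 6555, 6365, 6308, 6232, 6213, 6137, 6004]
    [([10393, 6232, 6137], 18),
     ([10374, 6308, 6004], 21),
     ([10298, 6308, 6137], 3),
     ([7581, 7581, 7581], 18),
     ([9614, 6612, 6555], 18),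
     ([10374, 10374], 3),
     ([8018, 7600, 7068], 6),
     ([7885, 7885, 6669], 3),
     ([7885, 7809, 7068], 48),
     ([10127, 6669, 6004], 33),
     ([7600, 7600, 7600], 16),
     ([9614, 6688, 6308], 9),
     ([8018, 8018, 6688], 9),
     ([7809, 7809, 6669], 3),
     ([9557, 6612, 6612], 18),
     ([9614, 6593, 6593], 27),
     ([9557, 6688, 6555], 36),
     ([10127, 6365, 6308], 21),
     ([8018, 8018, 6669], 15),
     ([10298, 6232, 6232], 18),
     ([10374, 6213, 6213], 27),
     ([10298, 6365, 6137], 33),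
     ([10393, 10393], 18),
     ([16810, 2993, 2996], 27),
     ([16810, 2995, 2995], 27),
     ([16802, 2993, 3004], 27),
     ([16802, 2999, 2999], 27),
     ([16798, 2996, 3004], 27),
     ([16798, 3000, 3000], 27)] = true := by
  decide +kernel

theorem result : ∃ a : List ℚ, (∀ x ∈ a, 0 < x ∧ x ≤ 1) ∧ (OPT a : ℝ) - LP a ≥ 65 / 54 := by
  have key := gap_of_holeB _ _ _ _ _ _ _ _ _ _ check
  refine ⟨_, key.1, ?_⟩
  refine le_trans ?_ key.2
  norm_num

end Vale.Agent.Results.P302.GapInstance
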